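import Vale.Agent.P272.S3.Compare
import Vale.Agent.P272.S2B.Bounds
import Vale.Agent.P272.HY.Blocks

/-!
# P272, stage 3, block H9 (second half): from the uniform bound of the extremal functional to the
disc inequality for the twisted Kähler-Einstein metrics
-/

open scoped Manifold ContDiff ComplexOrder Topology Matrix ENNReal
open Complex Set Filter Metric MeasureTheory

noncomputable section

namespace Vale.Agent.P272.S3

open Vale.Agent.P272.K
open HY (HolD TE)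
open S2B (gt IsKE)

variable {n : ℕ} {X : Type} [TopologicalSpace X] [ChartedSpace (Cm n) X]
  {w : Chart n X → Cm n → Matrix (Fin n) (Fin n) ℂ}

/-- the difference of two metrics on `K_X`, as a smooth function on `X` -/
theorem exists_dif [IsManifold 𝓘(ℂ, Cm n) ω X] {φ φ' : Chart n X → Cm n → ℝ}
    (hφ : IsCanonicalMetric φ) (hφ' : IsCanonicalMetric φ') :
    ∃ u : X → ℝ, SmoothFn (n := n) u ∧ (∀ e x, At e x → u x = φ e (e x) - φ' e (e x)) ∧
      ∀ e x, At e x → cHess (φ e) (e x) = cHess (φ' e) (e x) +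
        cHess (fun y => u (e.symm y)) (e x) := by
  have htwo : ∀ {f : Cm n → ℝ} {z}, ContDiffAt ℝ ∞ f z → ContDiffAt ℝ 2 f z :=
    fun h => h.of_le (by exact WithTop.coe_le_coe.2 le_top)
  set u : X → ℝ := fun x => φ (chartAt (Cm n) x) (chartAt (Cm n) x x) -
    φ' (chartAt (Cm n) x) (chartAt (Cm n) x x) with hu
  have hu' : ∀ e x, At e x → u x = φ e (e x) - φ' e (e x) := fun e x h =>
    canonical_diff hφ.change hφ'.change ⟨chart_mem_atlas _ x, mem_chart_source _ x⟩ h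
  have hev : ∀ (e : Chart n X) x, At e x →
      (fun y => u (e.symm y)) =ᶠ[𝓝 (e x)] fun y => φ e y - φ' e y := by
    intro e x h
    filter_upwards [h.nhds_target] with y hy
    rw [hu' e _ (At.of_target h.1 hy), e.right_inv hy]
  refine ⟨u, fun e x h => ?_, hu', fun e x h => ?_⟩
  · exact ((hφ.smooth e x h).sub (hφ'.smooth e x h)).congr_of_eventuallyEq (hev e x h)
  · have h1 : cHess (φ' e) (e x) + cHess (fun y => u (e.symm y)) (e x) =
        cHess (fun y => φ' e y + u (e.symm y)) (e x) :=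
      (cHess_add (htwo (hφ'.smooth e x h)) (htwo
        (((hφ.smooth e x h).sub (hφ'.smooth e x h)).congr_of_eventuallyEq (hev e x h)))).symm
    rw [h1]
    refine cHess_congr ?_
    filter_upwards [hev e x h] with y hy
    rw [hy]; ring

/-- the relation between two twisted metrics -/
lemma gt_rel {φ φ' : Chart n X → Cm n → ℝ} {s t : ℝ} {u : X → ℝ} {e : Chart n X} {x : X}
    (h : cHess (φ e) (e x) = cHess (φ' e) (e x) + cHess (fun y => u (e.symm y)) (e x)) :
    gt w s φ e (e x) = gt w t φ' e (e x) + ((s - t : ℝ) : ℂ) • w e (e x) +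
      cHess (fun y => u (e.symm y)) (e x) := by
  unfold S2B.gt
  rw [h]
  push_cast
  rw [sub_smul]
  abel

/-- uniform lower bound of the Kähler-Einstein volume forms, `0 < t ≤ 1` -/
def LowerKE (w : Chart n X → Cm n → Matrix (Fin n) (Fin n) ℂ) : Prop :=
  ∃ L : ℝ, ∀ t : ℝ, 0 < t → t ≤ 1 → ∀ φ : Chart n X → Cm n → ℝ, IsKE w t φ → ∀ e x, At e x →
    Real.log (w e (e x)).det.re ≤ L + φ e (e x)

/-- the disc inequality for the twisted Kähler-Einstein metrics (the input of Lemma GL) -/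
def DiscIneq (w : Chart n X → Cm n → Matrix (Fin n) (Fin n) ℂ) (t0 : ℝ) : Prop :=
  ∃ b C : ℝ, 0 < b ∧ ∀ t : ℝ, t0 < t → t ≤ t0 + 1 → ∀ φ : Chart n X → Cm n → ℝ, IsKE w t φ →
    ∀ h : ℂ → X, HolD n h → TE (gt w t φ) 1 h ≠ ⊤ →
      b * (TE w 1 h).toReal ≤ (TE (gt w t φ) 1 h).toReal + C

/-- **H9**, second half -/
theorem discIneq_of_bound [IsManifold 𝓘(ℂ, Cm n) ω X] [CompactSpace X] (hw : IsKahler w)
    (hL : LowerKE w) {φ₁ : Chart n X → Cm n → ℝ} (hφ₁ : IsKE w 1 φ₁) {η C : ℝ} (hη : 0 < η)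
    (hS : ∀ r : ℝ, 0 < r → r < 1 → ∀ f : ℂ → X, HolD n f → TE (gt w 1 φ₁) 1 f ≠ ⊤ →
      (1 + η) * (TE w r f).toReal ≤ (TE (gt w 1 φ₁) 1 f).toReal + C) : DiscIneq w 0 := by
  obtain ⟨L, hL⟩ := hL
  obtain ⟨C1, hC1, hup⟩ := S2B.ke_upper hw (t1 := 1)
  have hwH := hw.toIsHermitian
  have hK1 := (hφ₁.isKahler hw).toIsHermitian
  refine ⟨η, C + 2 * (C1 + |L|), hη, fun t ht0 ht1 φ hφ f hf hT => ?_⟩
  rw [zero_add] at ht1
  have hK := (hφ.isKahler hw).toIsHermitian
  obtain ⟨u, hu, hu1, hu2⟩ := exists_dif hφ₁.can hφ.can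
  have hU : ∀ x, |u x| ≤ C1 + |L| := by
    intro x
    have he := BR.at_chartAt (n := n) x
    have h1 := hup 1 one_pos le_rfl φ₁ hφ₁ _ x he
    have h2 := hup t ht0 ht1 φ hφ _ x he
    have h3 := hL 1 one_pos le_rfl φ₁ hφ₁ _ x he
    have h4 := hL t ht0 ht1 φ hφ _ x he
    have h5 := le_abs_self L
    rw [hu1 _ x he, abs_le]
    constructor <;> linarith
  have hTw : TE w 1 f ≠ ⊤ := te_ne_top_of hK hwH hT
  have hT1 : TE (gt w 1 φ₁) 1 f ≠ ⊤ := te_ne_top_of hK hK1 hT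
  have h1 := compare_one (c := 1 - t) hK1 hK hwH
    (fun e x hx => (hu e x hx).of_le (by exact WithTop.coe_le_coe.2 le_top))
    (fun e x hx => gt_rel (hu2 e x hx)) hU hf hT1 hT hTw
  have h2 : (1 + η) * (TE w 1 f).toReal ≤ (TE (gt w 1 φ₁) 1 f).toReal + C :=
    le_of_tendsto' ((tendsto_te_toReal hwH hf hTw).const_mul (1 + η)) fun k =>
      hS (rad k) (rad_pos k) (rad_lt k) f hf hT1
  have h3 := (abs_le.1 h1).2
  have h4 : 0 ≤ t * (TE w 1 f).toReal := mul_nonneg ht0.le ENNReal.toReal_nonneg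
  linarith

/-- the lower bound from Theorem 1 -/
theorem lowerKE_of_b14 [IsManifold 𝓘(ℂ, Cm n) ω X] (hn : 1 ≤ n) (h14 : HY.B14 n X)
    (hw : IsKahler w) {M : ℝ} (hM : 0 < M) (hb : ∀ f : ℂ → X, HolD n f → BR.spd w f 0 ≤ M) :
    LowerKE w := by
  have hn0 : (0 : ℝ) < n := by exact_mod_cast hn
  have hc : 0 < ((n : ℝ) / (Real.exp 1 * M)) ^ n := by positivity
  refine ⟨-Real.log (((n : ℝ) / (Real.exp 1 * M)) ^ n), fun t ht ht1 φ hφ e x hx => ?_⟩
  have hK := hφ.isKahler hw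
  have hric : HY.RicGe (gt w t φ) := by
    intro e x hx
    rw [hφ.ric hx]
    have h1 : -(gt w t φ e (e x) + -((t : ℂ) • w e (e x))) + gt w t φ e (e x) =
        (t : ℂ) • w e (e x) := by abel
    rw [h1]
    exact posSemidef_ofReal_smul (hw.posDef e x hx).posSemidef ht.le
  have h1 := h14 w hw.toIsHermitian M hM hb (gt w t φ) hK hric e x hx
  have hd := hw.toIsHermitian.det_re_pos hx
  have h2 := Real.log_le_log (mul_pos hc hd) h1
  rw [Real.log_mul hc.ne' hd.ne', hφ.eqn e x hx] at h2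
  linarith

end Vale.Agent.P272.S3
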