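import Vale.Agent.P272.HY.Defs
import Vale.Agent.P272.S2B.SubMean

/-!
# P272, stage 3: the Laplacian of a function along a holomorphic curve
-/

open scoped Manifold ContDiff ComplexOrder Topology Matrix
open Complex Set Filter Metric

noncomputable section

namespace Vale.Agent.P272.S3

open Vale.Agent.P272.K

section curve
variable {E : Type*} [NormedAddCommGroup E] [NormedSpace ℂ E] {q : E → ℝ} {c : ℂ → E} {z : ℂ}

/-- first derivative along a holomorphic curve -/
lemma fderiv_comp_hol {w : ℂ} (hq : DifferentiableAt ℝ q (c w)) (hc : DifferentiableAt ℂ c w)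
    (v : ℂ) : fderiv ℝ (fun w => q (c w)) w v = fderiv ℝ q (c w) (v • deriv c w) := by
  have h1 : HasFDerivAt c ((ContinuousLinearMap.toSpanSingleton ℂ (deriv c w)).restrictScalars ℝ)
      w := hc.hasDerivAt.hasFDerivAt.restrictScalars ℝ
  have h2 := hq.hasFDerivAt.comp w h1
  have h3 : fderiv ℝ (fun w => q (c w)) w = (fderiv ℝ q (c w)).comp
      ((ContinuousLinearMap.toSpanSingleton ℂ (deriv c w)).restrictScalars ℝ) := h2.fderiv
  rw [h3]
  simp

/-- second derivative along a holomorphic curve -/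
lemma fderiv2_comp_hol [CompleteSpace E] (hq : ContDiffAt ℝ 2 q (c z))
    (hc : ∀ᶠ w in 𝓝 z, DifferentiableAt ℂ c w) (v : ℂ) :
    fderiv ℝ (fun w => fderiv ℝ (fun w => q (c w)) w v) z v =
      fderiv ℝ (fderiv ℝ q) (c z) (v • deriv c z) (v • deriv c z) +
        fderiv ℝ q (c z) ((v * v) • deriv (deriv c) z) := by
  have hcz : DifferentiableAt ℂ c z := hc.self_of_nhds
  have hA : AnalyticAt ℂ c z := by
    obtain ⟨s, hs, hs'⟩ := hc.exists_mem
    obtain ⟨t, hts, hto, hzt⟩ := _root_.mem_nhds_iff.1 hs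
    exact DifferentiableOn.analyticAt (s := t)
      (fun w hw => (hs' w (hts hw)).differentiableWithinAt) (hto.mem_nhds hzt)
  have hd : DifferentiableAt ℂ (deriv c) z := hA.deriv.differentiableAt
  have hq1 : ∀ᶠ y in 𝓝 (c z), DifferentiableAt ℝ q y := by
    filter_upwards [hq.eventually (by simp)] with y hy
    exact hy.differentiableAt (by norm_num)
  have hev : (fun w => fderiv ℝ (fun w => q (c w)) w v) =ᶠ[𝓝 z]
      fun w => fderiv ℝ q (c w) (v • deriv c w) := by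
    filter_upwards [hc, hcz.continuousAt.eventually hq1] with w hw hw'
    exact fderiv_comp_hol hw' hw v
  rw [hev.fderiv_eq]
  have h1 : HasFDerivAt c ((ContinuousLinearMap.toSpanSingleton ℂ (deriv c z)).restrictScalars ℝ)
      z := hcz.hasDerivAt.hasFDerivAt.restrictScalars ℝ
  have hq2 : HasFDerivAt (fderiv ℝ q) (fderiv ℝ (fderiv ℝ q) (c z)) (c z) :=
    ((hq.fderiv_right (m := 1) (by norm_num)).differentiableAt (by norm_num)).hasFDerivAt
  have h2 : HasFDerivAt (fun w => fderiv ℝ q (c w)) ((fderiv ℝ (fderiv ℝ q) (c z)).comp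
      ((ContinuousLinearMap.toSpanSingleton ℂ (deriv c z)).restrictScalars ℝ)) z :=
    hq2.comp z h1
  have h3 : HasFDerivAt (fun w => v • deriv c w)
      (v • (ContinuousLinearMap.toSpanSingleton ℂ (deriv (deriv c) z)).restrictScalars ℝ) z :=
    (hd.hasDerivAt.hasFDerivAt.restrictScalars ℝ).const_smul v
  have h4 := h2.clm_apply h3
  rw [h4.fderiv]
  simp [smul_smul, add_comm]

/-- **chain rule**: `∂∂̄ (q ∘ c) = Lev q (c', c')` for a holomorphic curve `c` -/
theorem ddb_comp_curve [CompleteSpace E] (hq : ContDiffAt ℝ 2 q (c z))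
    (hc : ∀ᶠ w in 𝓝 z, DifferentiableAt ℂ c w) :
    GJ.ddb (fun w => q (c w)) z =
      (fderiv ℝ (fderiv ℝ q) (c z) (deriv c z) (deriv c z) +
        fderiv ℝ (fderiv ℝ q) (c z) (I • deriv c z) (I • deriv c z)) / 4 := by
  rw [GJ.ddb, fderiv2_comp_hol hq hc, fderiv2_comp_hol hq hc, one_smul, I_mul_I, mul_one,
    one_smul, neg_one_smul, map_neg]
  ring

end curve

variable {n : ℕ}

lemma hq_eq (M : Matrix (Fin n) (Fin n) ℂ) (ξ : Cm n) : HY.hq M ξ = S2B.hq M ξ := by
  unfold HY.hq S2B.hq quad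
  simp only [dotProduct, Matrix.mulVec, Finset.mul_sum]
  congr 1
  refine Finset.sum_congr rfl fun i _ => Finset.sum_congr rfl fun j _ => ?_
  simp only [Pi.star_apply, cj, RCLike.star_def]
  ring

theorem ddb_comp_hol {q : Cm n → ℝ} {c : ℂ → Cm n} {z : ℂ} (hq : ContDiffAt ℝ 2 q (c z))
    (hc : ∀ᶠ w in 𝓝 z, DifferentiableAt ℂ c w) :
    GJ.ddb (fun w => q (c w)) z = HY.hq (cHess q (c z)) (deriv c z) := by
  rw [ddb_comp_curve hq hc, hq_eq, S2B.hq_cHess hq]

lemma ddb_congr {φ ψ : ℂ → ℝ} {z : ℂ} (h : φ =ᶠ[𝓝 z] ψ) : GJ.ddb φ z = GJ.ddb ψ z := by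
  have h1 : ∀ v : ℂ, (fun w => fderiv ℝ φ w v) =ᶠ[𝓝 z] fun w => fderiv ℝ ψ w v := by
    intro v
    filter_upwards [h.eventuallyEq_nhds] with w hw
    rw [hw.fderiv_eq]
  rw [GJ.ddb, GJ.ddb, (h1 1).fderiv_eq, (h1 I).fderiv_eq]

section
variable {X : Type*} [TopologicalSpace X] [ChartedSpace (Cm n) X] {f : ℂ → X} {u : X → ℝ}
  {e : Chart n X} {z : ℂ}

/-- `∂∂̄ (u ∘ f) = Σ u_{i j̄} f'_i f̄'_j` -/
theorem ddb_fun_comp (hf : ∀ᶠ w in 𝓝 z, BR.HolAt n f w) (he : At e (f z))
    (hu : ContDiffAt ℝ 2 (fun y => u (e.symm y)) (e (f z))) :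
    GJ.ddb (fun w => u (f w)) z = HY.hq (cHess (fun y => u (e.symm y)) (e (f z))) (vel f e z) := by
  have hev : ∀ᶠ w in 𝓝 z, At e (f w) := BR.HolAt.eventually_at hf.self_of_nhds.1 he
  have h1 : (fun w => u (f w)) =ᶠ[𝓝 z] fun w => (fun y => u (e.symm y)) (e (f w)) := by
    filter_upwards [hev] with w hw
    simp only [hw.left_inv]
  rw [ddb_congr h1, ddb_comp_hol (q := fun y => u (e.symm y)) (c := fun w => e (f w)) hu]
  · rfl
  · filter_upwards [hev, hf] with w hw hfw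
    exact hfw.2 e hw

/-- `u ∘ f` is of class `C²` -/
theorem contDiffAt_fun_comp (hf : ∀ᶠ w in 𝓝 z, BR.HolAt n f w) (he : At e (f z)) {k : ℕ∞}
    (hu : ContDiffAt ℝ k (fun y => u (e.symm y)) (e (f z))) :
    ContDiffAt ℝ k (fun w => u (f w)) z := by
  have hev : ∀ᶠ w in 𝓝 z, At e (f w) := BR.HolAt.eventually_at hf.self_of_nhds.1 he
  have h1 : (fun w => u (f w)) =ᶠ[𝓝 z] fun w => (fun y => u (e.symm y)) (e (f w)) := by
    filter_upwards [hev] with w hw
    simp only [hw.left_inv]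
  refine ContDiffAt.congr_of_eventuallyEq ?_ h1
  have hA : AnalyticAt ℂ (fun w => e (f w)) z := by
    have h2 : ∀ᶠ w in 𝓝 z, DifferentiableAt ℂ (fun w => e (f w)) w := by
      filter_upwards [hev, hf] with w hw hfw
      exact hfw.2 e hw
    obtain ⟨s, hs, hs'⟩ := h2.exists_mem
    obtain ⟨t, hts, hto, hzt⟩ := _root_.mem_nhds_iff.1 hs
    exact DifferentiableOn.analyticAt (s := t)
      (fun w hw => (hs' w (hts hw)).differentiableWithinAt) (hto.mem_nhds hzt)
  have h3 : ContDiffAt ℝ k (fun w => e (f w)) z :=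
    (hA.contDiffAt (n := (k : WithTop ℕ∞))).restrict_scalars ℝ
  exact ContDiffAt.comp (g := fun y => u (e.symm y)) z hu h3

end

end Vale.Agent.P272.S3
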