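import Vale.Agent.P272.S3.Chain
import Vale.Agent.P272.GJ.Second
import Vale.Agent.P272.BR.Spd

/-!
# P272, stage 3, block H8: comparison of the characteristics of cohomologous metrics
-/

open scoped Manifold ContDiff ComplexOrder Topology Matrix ENNReal
open Complex Set Filter Metric MeasureTheory

noncomputable section

namespace Vale.Agent.P272.S3

open Vale.Agent.P272.K
open HY (HolD TE)

variable {n : ℕ} {X : Type*} [TopologicalSpace X] [ChartedSpace (Cm n) X]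
  [IsManifold 𝓘(ℂ, Cm n) ω X] {w g g' : Chart n X → Cm n → Matrix (Fin n) (Fin n) ℂ}
  {f : ℂ → X} {ρ : ℝ}

lemma cont_spd (hw : IsHermitian w) (hf : HolD n f) : ContinuousOn (BR.spd w f) (ball 0 1) :=
  BR.HolOn.continuousOn_spd isOpen_ball hw hf

lemma cont_spd' (hw : IsHermitian w) (hf : HolD n f) (h1 : ρ < 1) :
    ContinuousOn (BR.spd w f) (closedBall 0 ρ) :=
  (cont_spd hw hf).mono (closedBall_subset_ball h1)

lemma te_eq (hw : IsHermitian w) (hf : HolD n f) (h0 : 0 < ρ) (h1 : ρ < 1) :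
    TE w ρ f = ENNReal.ofReal (∫ z in ball (0 : ℂ) ρ, GJ.Gr ρ z * BR.spd w f z) :=
  (GJ.ofReal_integral_Gr h0 (cont_spd' hw hf h1) fun z _ => BR.spd_nonneg hw f z).symm

lemma te_ne_top (hw : IsHermitian w) (hf : HolD n f) (h0 : 0 < ρ) (h1 : ρ < 1) :
    TE w ρ f ≠ ⊤ := by
  rw [te_eq hw hf h0 h1]; exact ENNReal.ofReal_ne_top

lemma te_toReal (hw : IsHermitian w) (hf : HolD n f) (h0 : 0 < ρ) (h1 : ρ < 1) :
    (TE w ρ f).toReal = ∫ z in ball (0 : ℂ) ρ, GJ.Gr ρ z * BR.spd w f z := by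
  rw [te_eq hw hf h0 h1, ENNReal.toReal_ofReal]
  refine setIntegral_nonneg measurableSet_ball fun z hz => ?_
  exact mul_nonneg (GJ.Gr_nonneg hz) (BR.spd_nonneg hw f z)

lemma te_le_one (hw : IsHermitian w) (hf : HolD n f) (h0 : 0 < ρ) (h1 : ρ < 1) :
    TE w ρ f ≤ TE w 1 f := by
  rw [te_eq hw hf h0 h1]
  exact GJ.ofReal_Tr_le h0 h1 (cont_spd hw hf) fun z _ => BR.spd_nonneg hw f z

lemma te_toReal_le_one (hw : IsHermitian w) (hf : HolD n f) (h0 : 0 < ρ) (h1 : ρ < 1)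
    (hT : TE w 1 f ≠ ⊤) : (TE w ρ f).toReal ≤ (TE w 1 f).toReal :=
  ENNReal.toReal_mono hT (te_le_one hw hf h0 h1)

/-- a sequence of radii -/
def rad (k : ℕ) : ℝ := 1 - 1 / ((k : ℝ) + 2)

lemma rad_pos (k : ℕ) : 0 < rad k := by
  unfold rad
  have : (0 : ℝ) < (k : ℝ) + 2 := by positivity
  have h2 : 1 / ((k : ℝ) + 2) < 1 := by rw [div_lt_one this]; linarith
  linarith

lemma rad_lt (k : ℕ) : rad k < 1 := by
  unfold rad
  have : (0 : ℝ) < 1 / ((k : ℝ) + 2) := by positivity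
  linarith

lemma tendsto_rad : Tendsto rad atTop (𝓝 1) := by
  have h1 : Tendsto (fun k : ℕ => (k : ℝ) + 2) atTop atTop :=
    tendsto_atTop_add_const_right _ _ tendsto_natCast_atTop_atTop
  have h2 : Tendsto (fun k : ℕ => (1 : ℝ) / ((k : ℝ) + 2)) atTop (𝓝 0) := by
    have h3 := h1.inv_tendsto_atTop
    refine h3.congr fun k => ?_
    simp
  have h4 := h2.const_sub 1
  rw [sub_zero] at h4
  exact h4

lemma tendsto_te (hw : IsHermitian w) (hf : HolD n f) :
    Tendsto (fun k => TE w (rad k) f) atTop (𝓝 (TE w 1 f)) := by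
  have h := GJ.tendsto_Tr (cont_spd hw hf) (fun z _ => BR.spd_nonneg hw f z) rad_pos rad_lt
    tendsto_rad
  refine h.congr fun k => ?_
  rw [te_eq hw hf (rad_pos k) (rad_lt k)]

lemma tendsto_te_toReal (hw : IsHermitian w) (hf : HolD n f) (hT : TE w 1 f ≠ ⊤) :
    Tendsto (fun k => (TE w (rad k) f).toReal) atTop (𝓝 (TE w 1 f).toReal) :=
  (ENNReal.tendsto_toReal hT).comp (tendsto_te hw hf)

lemma te_ne_top_of [CompactSpace X] (hw : IsHermitian w) (hg : IsHermitian g)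
    (hT : TE w 1 f ≠ ⊤) : TE g 1 f ≠ ⊤ := by
  obtain ⟨C, hC, hb⟩ := BR.exists_spd_le (X := X) hw hg
  have h1 : TE g 1 f ≤ ENNReal.ofReal C * TE w 1 f := by
    unfold HY.TE
    rw [← lintegral_const_mul' _ _ ENNReal.ofReal_ne_top]
    refine setLIntegral_mono' measurableSet_ball fun z hz => ?_
    rw [← ENNReal.ofReal_mul hC.le]
    refine ENNReal.ofReal_le_ofReal ?_
    have := mul_le_mul_of_nonneg_left (hb f z) (GJ.Gr_nonneg hz)
    linarith
  exact ne_top_of_le_ne_top (ENNReal.mul_ne_top ENNReal.ofReal_ne_top hT) h1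

lemma hq_add (A B : Matrix (Fin n) (Fin n) ℂ) (v : Cm n) : HY.hq (A + B) v = HY.hq A v + HY.hq B v := by
  rw [hq_eq, hq_eq, hq_eq, S2B.hq_add]

lemma hq_ofReal_smul (c : ℝ) (A : Matrix (Fin n) (Fin n) ℂ) (v : Cm n) :
    HY.hq ((c : ℂ) • A) v = c * HY.hq A v := by
  unfold HY.hq quad
  simp only [Matrix.smul_apply, smul_eq_mul, mul_assoc, ← Finset.mul_sum, Complex.re_ofReal_mul]

/-- the difference of the speeds of two cohomologous metrics -/
lemma spd_compare {c : ℝ} {u : X → ℝ}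
    (hu : ∀ (e : Chart n X) x, At e x → ContDiffAt ℝ 2 (fun y => u (e.symm y)) (e x))
    (h : ∀ e x, At e x → g e (e x) = g' e (e x) + (c : ℂ) • w e (e x) +
      cHess (fun y => u (e.symm y)) (e x)) {z : ℂ} (hf : ∀ᶠ ζ in 𝓝 z, BR.HolAt n f ζ) :
    BR.spd g f z = BR.spd g' f z + c * BR.spd w f z + GJ.ddb (fun ζ => u (f ζ)) z := by
  have he := BR.at_chartAt (n := n) (f z)
  rw [ddb_fun_comp hf he (hu _ _ he)]
  have h1 := h _ _ he
  have e1 : BR.spd g f z = HY.hq (g (chartAt (Cm n) (f z)) (chartAt (Cm n) (f z) (f z)))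
      (vel f (chartAt (Cm n) (f z)) z) := rfl
  rw [e1, h1, hq_add, hq_add, hq_ofReal_smul]
  rfl

section
variable {c : ℝ} {u : X → ℝ} {U : ℝ}

/-- **H8**, exact form on a smaller disc -/
theorem compare_eq (hg : IsHermitian g) (hg' : IsHermitian g') (hw : IsHermitian w)
    (hu : ∀ (e : Chart n X) x, At e x → ContDiffAt ℝ 2 (fun y => u (e.symm y)) (e x))
    (h : ∀ e x, At e x → g e (e x) = g' e (e x) + (c : ℂ) • w e (e x) +
      cHess (fun y => u (e.symm y)) (e x)) (hf : HolD n f) (h0 : 0 < ρ) (h1 : ρ < 1) :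
    (TE g ρ f).toReal = (TE g' ρ f).toReal + c * (TE w ρ f).toReal +
      (Real.circleAverage (fun ζ => u (f ζ)) 0 ρ - u (f 0)) := by
  have hev : ∀ z ∈ ball (0 : ℂ) 1, ∀ᶠ ζ in 𝓝 z, BR.HolAt n f ζ := fun z hz => by
    filter_upwards [isOpen_ball.mem_nhds hz] with ζ hζ
    exact hf ζ hζ
  have hC2 : ∀ z ∈ closedBall (0 : ℂ) ρ, ContDiffAt ℝ 2 (fun ζ => u (f ζ)) z := fun z hz =>
    contDiffAt_fun_comp (k := 2) (hev z (closedBall_subset_ball h1 hz))
      (BR.at_chartAt (n := n) (f z)) (hu _ _ (BR.at_chartAt (n := n) (f z)))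
  have hgj := GJ.green_jensen h0 hC2
  rw [te_toReal hg hf h0 h1, te_toReal hg' hf h0 h1, te_toReal hw hf h0 h1, ← hgj]
  have i1 := GJ.integrableOn_Gr_mul h0 (cont_spd' hg' hf h1)
  have i2 := GJ.integrableOn_Gr_mul h0 (cont_spd' hw hf h1)
  have i3 := GJ.integrableOn_Gr_mul h0 (GJ.contOn_ddb hC2)
  have i12 : IntegrableOn (fun z => GJ.Gr ρ z * BR.spd g' f z + c * (GJ.Gr ρ z * BR.spd w f z))
      (ball 0 ρ) volume := i1.add (i2.const_mul c)
  rw [← integral_const_mul, ← integral_add i1 (i2.const_mul c), ← integral_add i12 i3]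
  refine setIntegral_congr_fun measurableSet_ball fun z hz => ?_
  have hz1 : z ∈ ball (0 : ℂ) 1 := ball_subset_ball h1.le hz
  show GJ.Gr ρ z * BR.spd g f z = _
  rw [spd_compare hu h (hev z hz1)]
  ring

lemma circleAverage_abs_le {φ : ℂ → ℝ} {r : ℝ} (hc : ContinuousOn φ (sphere 0 |r|))
    (h : ∀ z ∈ sphere (0 : ℂ) |r|, |φ z| ≤ U) : |Real.circleAverage φ 0 r| ≤ U := by
  have hci : CircleIntegrable φ 0 r := hc.circleIntegrable'
  rw [abs_le]
  constructor
  · have h1 := Real.circleAverage_mono (f₁ := fun _ => -U) (circleIntegrable_const _ _ _) hci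
      fun z hz => (abs_le.1 (h z hz)).1
    rwa [Real.circleAverage_const] at h1
  · have h1 := Real.circleAverage_mono (f₂ := fun _ => U) hci (circleIntegrable_const _ _ _)
      fun z hz => (abs_le.1 (h z hz)).2
    rwa [Real.circleAverage_const] at h1

/-- **H8** -/
theorem compare (hg : IsHermitian g) (hg' : IsHermitian g') (hw : IsHermitian w)
    (hu : ∀ (e : Chart n X) x, At e x → ContDiffAt ℝ 2 (fun y => u (e.symm y)) (e x))
    (h : ∀ e x, At e x → g e (e x) = g' e (e x) + (c : ℂ) • w e (e x) +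
      cHess (fun y => u (e.symm y)) (e x)) (hU : ∀ x, |u x| ≤ U) (hf : HolD n f) (h0 : 0 < ρ)
    (h1 : ρ < 1) :
    |(TE g ρ f).toReal - (TE g' ρ f).toReal - c * (TE w ρ f).toReal| ≤ 2 * U := by
  rw [compare_eq hg hg' hw hu h hf h0 h1]
  have h2 : |Real.circleAverage (fun ζ => u (f ζ)) 0 ρ| ≤ U := by
    refine circleAverage_abs_le ?_ fun z _ => hU _
    rw [abs_of_pos h0]
    intro z hz
    have hz1 : z ∈ ball (0 : ℂ) 1 := closedBall_subset_ball h1 (sphere_subset_closedBall hz)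
    have hev : ∀ᶠ ζ in 𝓝 z, BR.HolAt n f ζ := by
      filter_upwards [isOpen_ball.mem_nhds hz1] with ζ hζ
      exact hf ζ hζ
    exact (contDiffAt_fun_comp (k := 2) hev (BR.at_chartAt (n := n) (f z))
      (hu _ _ (BR.at_chartAt (n := n) (f z)))).continuousAt.continuousWithinAt
  have h3 := hU (f 0)
  rw [abs_le] at h2 h3 ⊢
  constructor <;> linarith [h2.1, h2.2, h3.1, h3.2]

/-- **H8** on the whole disc -/
theorem compare_one (hg : IsHermitian g) (hg' : IsHermitian g') (hw : IsHermitian w)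
    (hu : ∀ (e : Chart n X) x, At e x → ContDiffAt ℝ 2 (fun y => u (e.symm y)) (e x))
    (h : ∀ e x, At e x → g e (e x) = g' e (e x) + (c : ℂ) • w e (e x) +
      cHess (fun y => u (e.symm y)) (e x)) (hU : ∀ x, |u x| ≤ U) (hf : HolD n f)
    (hTg : TE g 1 f ≠ ⊤) (hTg' : TE g' 1 f ≠ ⊤) (hTw : TE w 1 f ≠ ⊤) :
    |(TE g 1 f).toReal - (TE g' 1 f).toReal - c * (TE w 1 f).toReal| ≤ 2 * U := by
  have h1 := (((tendsto_te_toReal hg hf hTg).sub (tendsto_te_toReal hg' hf hTg')).sub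
    ((tendsto_te_toReal hw hf hTw).const_mul c)).abs
  exact le_of_tendsto' h1 fun k => compare hg hg' hw hu h hU hf (rad_pos k) (rad_lt k)

end

end Vale.Agent.P272.S3
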