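import Vale.Agent.P272.COR.Main
import Vale.Agent.P272.S3.Bound

/-!
# P272, stage 3, block H9: volumes, and the case of curves
-/

open scoped Manifold ContDiff ComplexOrder Topology Matrix ENNReal
open Complex Set Filter Metric MeasureTheory

noncomputable section

namespace Vale.Agent.P272.S3

open Vale.Agent.P272.K
open Vale.Agent.P272.K.INT
open S2B (gt IsKE)

variable {n : ℕ} {X : Type} [TopologicalSpace X] [ChartedSpace (Cm n) X]
  [IsManifold 𝓘(ℂ, Cm n) ω X] [T2Space X] [CompactSpace X]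
  {w : Chart n X → Cm n → Matrix (Fin n) (Fin n) ℂ}

/-- for a small parameter `δ` the volume of `K_X + δ w` dominates `4 δ vol (K_X + (1 + δ) w)` -/
theorem exists_small [Nonempty X] (hw : IsKahler w) (hv : COR.VolLower w)
    (hnef : NefCanonical w 0) : ∃ δ : ℝ, 0 < δ ∧ δ ≤ 1 ∧ ∀ φ : Chart n X → Cm n → ℝ,
      IsCanonicalMetric φ → 2 * (δ + δ) * PP φ w (δ + 1) ≤ PP φ w δ := by
  obtain ⟨c, hc, h⟩ := hv
  have hke := twistedKE_of_nef (aubinYau n X) hw le_rfl hnef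
  have hcl := IsKahler.isClosedForm hw
  obtain ⟨ψ, hψ, -⟩ := hke 1 one_pos
  have hcont : Continuous (PP ψ w) := continuous_iff_continuousAt.2 fun t =>
    (PP_hasDerivAt hψ hcl t).continuousAt
  obtain ⟨t0, -, ht0⟩ := (isCompact_Icc (a := (1 : ℝ)) (b := 2)).exists_isMaxOn
    ⟨1, by norm_num⟩ hcont.continuousOn
  set V1 : ℝ := max (PP ψ w t0) 0 with hV1
  have hV1n : 0 ≤ V1 := le_max_right _ _
  set v0 : ℝ := c * intX fun e z => (w e z).det.re with hv0
  have hv0p : 0 < v0 := mul_pos hc (COR.intX_vol_pos hw)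
  set δ : ℝ := min 1 (v0 / (4 * (V1 + 1))) with hδ
  have hδ0 : 0 < δ := lt_min one_pos (by positivity)
  have hδ1 : δ ≤ 1 := min_le_left _ _
  have hδ2 : δ ≤ v0 / (4 * (V1 + 1)) := min_le_right _ _
  refine ⟨δ, hδ0, hδ1, fun φ hφ => ?_⟩
  have h1 : v0 ≤ PP φ w δ := COR.PP_ge hw h hke hφ hδ0
  have h2 : PP φ w (δ + 1) ≤ V1 := by
    rw [PP_eq hφ hψ hcl]
    exact (ht0 ⟨by linarith, by linarith⟩).trans (le_max_left _ _)
  have h3 : δ * (4 * (V1 + 1)) ≤ v0 := by rwa [le_div_iff₀ (by positivity)] at hδ2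
  have h4 : 2 * (δ + δ) * PP φ w (δ + 1) ≤ 2 * (δ + δ) * V1 :=
    mul_le_mul_of_nonneg_left h2 (by positivity)
  nlinarith

omit [T2Space X] [CompactSpace X] in
/-- on curves the volume comparison is a comparison of metrics -/
theorem trace_bound_one {w : Chart 1 X → Cm 1 → Matrix (Fin 1) (Fin 1) ℂ}
    [ChartedSpace (Cm 1) X] [IsManifold 𝓘(ℂ, Cm 1) ω X] (hw : IsKahler w)
    (hv : COR.VolLower w) : ∃ C : ℝ, 0 < C ∧ ∀ t : ℝ, 0 < t → t ≤ 0 + 1 →
      ∀ φ : Chart 1 X → Cm 1 → ℝ, IsKE w t φ → ∀ e x, At e x →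
        ((C : ℂ) • gt w t φ e (e x) - w e (e x)).PosSemidef := by
  obtain ⟨c, hc, h⟩ := hv
  refine ⟨c⁻¹, inv_pos.2 hc, fun t ht ht1 φ hφ e x hx => ?_⟩
  have hK := hφ.isKahler hw
  have hric : HY.RicGe (gt w t φ) := by
    intro e x hx
    rw [hφ.ric hx]
    have h1 : -(gt w t φ e (e x) + -((t : ℂ) • w e (e x))) + gt w t φ e (e x) =
        (t : ℂ) • w e (e x) := by abel
    rw [h1]
    exact posSemidef_ofReal_smul (hw.posDef e x hx).posSemidef ht.le
  have h1 := h _ hK hric e x hx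
  rw [Matrix.det_fin_one, Matrix.det_fin_one] at h1
  have hg : (gt w t φ e (e x)).IsHermitian := (hK.posDef e x hx).isHermitian
  have hwh : (w e (e x)).IsHermitian := (hw.posDef e x hx).isHermitian
  have him : ∀ {M : Matrix (Fin 1) (Fin 1) ℂ}, M.IsHermitian → M 0 0 = (((M 0 0).re : ℝ) : ℂ) := by
    intro M hM
    have := hM.apply 0 0
    exact (Complex.conj_eq_iff_re.1 this).symm
  set a := (gt w t φ e (e x) 0 0).re with ha
  set b := (w e (e x) 0 0).re with hb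
  have h2 : (c⁻¹ : ℝ) * a - b ≥ 0 := by
    have h3 : c⁻¹ * (c * b) ≤ c⁻¹ * a := mul_le_mul_of_nonneg_left h1 (inv_pos.2 hc).le
    rw [← mul_assoc, inv_mul_cancel₀ hc.ne', one_mul] at h3
    linarith
  have h4 : (((c⁻¹ : ℝ) : ℂ) • gt w t φ e (e x) - w e (e x)) =
      (((c⁻¹ * a - b : ℝ)) : ℂ) • (1 : Matrix (Fin 1) (Fin 1) ℂ) := by
    ext i j
    fin_cases i
    fin_cases j
    simp only [Fin.zero_eta, Matrix.sub_apply, Matrix.smul_apply, smul_eq_mul, Matrix.one_apply_eq,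
      mul_one]
    rw [him hg, him hwh]
    push_cast
    ring
  rw [h4]
  exact posSemidef_ofReal_smul Matrix.PosSemidef.one h2

end Vale.Agent.P272.S3
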